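import Vale.Agent.P248.MathlibUsed

open MeasureTheory

namespace Vale.Agent.P248

/-- A convex body: a compact convex set with nonempty interior. -/
def IsConvexBody {n : ℕ} (K : Set (EuclideanSpace ℝ (Fin n))) : Prop :=
  IsCompact K ∧ Convex ℝ K ∧ (interior K).Nonempty

/-- The polar `(K - z)°`. -/
def polarAt {n : ℕ} (K : Set (EuclideanSpace ℝ (Fin n))) (z : EuclideanSpace ℝ (Fin n)) :
    Set (EuclideanSpace ℝ (Fin n)) :=
  {y | ∀ x ∈ K, inner ℝ y (x - z) ≤ 1}

/-- The volume product `P(K)`. -/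
noncomputable def volumeProduct {n : ℕ} (K : Set (EuclideanSpace ℝ (Fin n))) : ENNReal :=
  ⨅ z ∈ interior K, volume K * volume (polarAt K z)

/-- Locally anti-blocking in some affine frame: deleting one coordinate stays inside `K`. -/
def IsLocallyAntiBlocking {n : ℕ} (K : Set (EuclideanSpace ℝ (Fin n))) : Prop :=
  ∃ (p : EuclideanSpace ℝ (Fin n)) (b : Module.Basis (Fin n) ℝ (EuclideanSpace ℝ (Fin n))),
    ∀ x ∈ K, ∀ i, x - b.repr (x - p) i • b i ∈ K

/-- A simplex: the convex hull of `n + 1` affinely independent points. -/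
def IsSimplex {n : ℕ} (K : Set (EuclideanSpace ℝ (Fin n))) : Prop :=
  ∃ v : Fin (n + 1) → EuclideanSpace ℝ (Fin n), AffineIndependent ℝ v ∧
    K = convexHull ℝ (Set.range v)

end Vale.Agent.P248
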