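import Mathlib.Algebra.Group.Translate
import Mathlib.Algebra.Order.Archimedean.Real.Hom
import Mathlib.Algebra.Order.Ring.Star
import Mathlib.Algebra.Order.Star.Real
import Mathlib.Algebra.Ring.Action.Pointwise.Finset
import Mathlib.Algebra.Ring.IsFormallyReal
import Mathlib.Analysis.Convex.Continuous
import Mathlib.Analysis.Convex.KreinMilman
import Mathlib.Analysis.Convex.Measure
import Mathlib.Analysis.SpecialFunctions.Gamma.BohrMollerup
import Mathlib.Data.Finset.DenselyOrdered
import Mathlib.LinearAlgebra.Matrix.DotProduct
import Mathlib.LinearAlgebra.Matrix.Swap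
import Mathlib.MeasureTheory.Integral.Indicator
import Mathlib.MeasureTheory.Measure.Lebesgue.VolumeOfBalls
import Mathlib.Order.CompletePartialOrder
import Mathlib.RingTheory.Etale.Weakly
import Mathlib.RingTheory.Flat.TorsionFree
import Mathlib.RingTheory.TotallySplit
import Mathlib.Tactic
import Mathlib.Topology.Filter

/-! The part of Mathlib that the development of this folder uses. -/
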